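import Vale.Agent.P280.H376.ExCh2

/-! P280, stage 2: the chamber of block B3. -/

open DirectSum Vale.Agent.P280.T Vale.Agent.P280.H127 Vale.Agent.P280.N

namespace Vale.Agent.P280.H376

variable {r : ℕ} {R : Type} [CommRing R] [IsDomain R] [Algebra ℂ R]
  {𝒜 : ℕ × (Fin r → ℤ) → Submodule ℂ R} [GradedAlgebra 𝒜]
  {N : ℤ} {f : Fin (3 + 1) → Fin r → ℤ}
  {β : Fin (3 + 1) → Fin (3 + 1) → ((Fin r → ℤ) →+ ℤ)} {E F : Fin (3 + 1) → Fin (3 + 1) → VF R}

/-- A generic functional with `c (f 0) > c (f 1) > c (f 2) > c (f 3)` refining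
`β 0 3 + β 1 3 + β 2 3`. -/
theorem exists_ch3' (H : Hyp 𝒜) (hA : H989.AC 𝒜 N 3 f β E F) :
    ∃ c : (Fin r → ℤ) →+ ℤ, (∀ μ, Wt 𝒜 μ → c μ ≠ 0) ∧
      (∀ i j : Fin 4, i < j → c (f j) < c (f i)) ∧
      ∀ μ, Wt 𝒜 μ → 0 < (β 0 3 + β 1 3 + β 2 3) μ → 0 < c μ := by
  have hN := hA.N0
  have ht : ∀ k : Fin 4, (β 0 3 + β 1 3 + β 2 3) (f k) = if k = 3 then -3 * N else N := by
    intro k
    have h0 := hA.be 0 3 k (by decide)
    have h1 := hA.be 1 3 k (by decide)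
    have h2 := hA.be 2 3 k (by decide)
    rw [AddMonoidHom.add_apply, AddMonoidHom.add_apply, h0, h1, h2]
    fin_cases k <;> simp <;> ring
  obtain ⟨c1, hc1⟩ := exists_fun hA ![3, 1, -1, -3] (by simp [Fin.sum_univ_four])
  obtain ⟨l1, h1a, h1b, h1c⟩ := D01.exists_combo H (β 0 3 + β 1 3 + β 2 3) c1
  obtain ⟨g, hg⟩ := H587.exists_generic ((D01.wt_finite H).union (Set.finite_singleton 0))
  obtain ⟨c, h2a, h2b, h2c⟩ := D01.exists_combo H l1 g
  refine ⟨c, fun μ hμ => ?_, fun i j hij => ?_, fun μ hμ h => h2c μ hμ (h1c μ hμ h)⟩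
  · rcases lt_trichotomy (l1 μ) 0 with h4 | h4 | h4
    · have h5 := h2c (-μ) (H989.wt_neg H hμ) (by rw [map_neg]; omega)
      rw [map_neg] at h5
      omega
    · intro h5
      have h6 := h2b μ 0 (by rw [h4, map_zero])
      rw [h5, map_zero, map_zero, sub_zero, sub_zero] at h6
      have h7 : μ = 0 := hg (Or.inl hμ) (Or.inr rfl) (by rw [← h6, map_zero])
      exact c03_wt_ne_zero H hμ h7
    · exact (h2c μ hμ h4).ne'
  · refine h2a _ _ (hA.wt j) (hA.wt i) ?_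
    by_cases hj : j = 3
    · refine h1a _ _ (hA.wt j) (hA.wt i) ?_
      have hi : i ≠ 3 := by
        rintro rfl
        rw [hj] at hij
        exact absurd hij (lt_irrefl _)
      rw [ht, ht, if_pos hj, if_neg hi]
      linarith
    · have hi : i ≠ 3 := by
        rintro rfl
        exact absurd hij (not_lt.2 (Fin.le_last j))
      have h3 := h1b (f i) (f j) (by rw [ht, ht, if_neg hi, if_neg hj])
      rw [hc1, hc1] at h3
      have h4 : (![3, 1, -1, -3] : Fin 4 → ℤ) j < (![3, 1, -1, -3] : Fin 4 → ℤ) i := by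
        revert hij
        fin_cases i <;> fin_cases j <;> simp
      have h5 := mul_lt_mul_of_pos_left h4 hN
      change N * (![3, 1, -1, -3] : Fin 4 → ℤ) j < N * (![3, 1, -1, -3] : Fin 4 → ℤ) i at h5
      linarith

/-- The literal of block B3. -/
theorem exists_ch3 (H : Hyp 𝒜) (hA : H989.AC 𝒜 N 3 f β E F) :
    ∃ (σ : Equiv.Perm (Fin 4)) (c : (Fin r → ℤ) →+ ℤ), σ 3 = 3 ∧ (∀ μ, Wt 𝒜 μ → c μ ≠ 0) ∧
      (∀ i j : Fin 4, i < j → c (f (σ j)) < c (f (σ i))) ∧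
      ∀ μ, Wt 𝒜 μ → 0 < (β 0 3 + β 1 3 + β 2 3) μ → 0 < c μ := by
  obtain ⟨c, h1, h2, h3⟩ := exists_ch3' H hA
  exact ⟨Equiv.refl _, c, rfl, h1, h2, h3⟩

end Vale.Agent.P280.H376
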