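import Vale.Agent.P280.N2.Defs
import Vale.Agent.P280.N.D01

/-! P280, stage 2: the chamber `Ch2` exists. -/

open DirectSum Vale.Agent.P280.T Vale.Agent.P280.H127 Vale.Agent.P280.N

namespace Vale.Agent.P280.H376

/-- Values `v 0 > v 1 > 0 > v 2 > ⋯ > v n` with sum zero. -/
theorem exists_val (m : ℕ) : ∃ v : Fin (m + 2 + 1) → ℤ, ∑ i, v i = 0 ∧
    (∀ i j, i < j → v j < v i) ∧ 0 < v 1 ∧ ∀ j : Fin (m + 2 + 1), 2 ≤ (j : ℕ) → v j < 0 := by
  let u : Fin (m + 2 + 1) → ℤ := fun j => if (j : ℕ) = 0 then 0 else if (j : ℕ) = 1 then 1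
    else -3 * (j : ℤ)
  have hu0 : u 0 = 0 := by simp [u]
  have hu1 : u 1 = 1 := by simp [u]
  have hu2 : ∀ j : Fin (m + 2 + 1), 2 ≤ (j : ℕ) → u j = -3 * (j : ℤ) := by
    intro j hj
    simp only [u]
    rw [if_neg (by omega), if_neg (by omega)]
  have hsum : ∑ i, u i ≤ -5 := by
    rw [Fin.sum_univ_succ, Fin.sum_univ_succ, hu0]
    have h1 : u (Fin.succ 0) = 1 := hu1
    have h2 : ∑ i : Fin (m + 1), u i.succ.succ ≤ ∑ i : Fin (m + 1), (-6 : ℤ) := by
      refine Finset.sum_le_sum fun i _ => ?_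
      rw [hu2 i.succ.succ (by simp)]
      simp only [Fin.val_succ]
      push_cast
      omega
    have h3 : ∑ i : Fin (m + 1), (-6 : ℤ) = -6 * (m + 1) := by
      rw [Finset.sum_const, Finset.card_univ, Fintype.card_fin, nsmul_eq_mul]
      push_cast
      ring
    rw [h1]
    omega
  refine ⟨fun j => if j = 0 then -∑ i, u i else u j, ?_, ?_, ?_, ?_⟩
  · have h1 : ∀ j : Fin (m + 2 + 1), (if j = 0 then -∑ i, u i else u j) =
        (if j = 0 then -∑ i, u i else 0) + u j := by
      intro j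
      by_cases hj : j = 0
      · rw [if_pos hj, if_pos hj, hj, hu0, add_zero]
      · rw [if_neg hj, if_neg hj, zero_add]
    simp only [h1]
    rw [Finset.sum_add_distrib, Finset.sum_ite_eq' Finset.univ (0 : Fin (m + 2 + 1)),
      if_pos (Finset.mem_univ _)]
    ring
  · intro i j hij
    have hj : j ≠ 0 := by
      rintro rfl
      exact absurd hij (Fin.not_lt_zero i)
    have hij' : (i : ℕ) < (j : ℕ) := hij
    simp only [if_neg hj]
    by_cases hi : i = 0
    · rw [if_pos hi]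
      rcases Nat.lt_or_ge (j : ℕ) 2 with h2 | h2
      · have h3 : j = 1 := Fin.ext (by
          have : (j : ℕ) ≠ 0 := fun h => hj (Fin.ext h)
          simp only [Fin.val_one]
          omega)
        rw [h3, hu1]
        omega
      · rw [hu2 j h2]
        omega
    · rw [if_neg hi]
      have hi0 : (i : ℕ) ≠ 0 := fun h => hi (Fin.ext h)
      rw [hu2 j (by omega)]
      rcases Nat.lt_or_ge (i : ℕ) 2 with h2 | h2
      · have h3 : i = 1 := Fin.ext (by
          simp only [Fin.val_one]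
          omega)
        rw [h3, hu1]
        omega
      · rw [hu2 i h2]
        omega
  · have h1 : (1 : Fin (m + 2 + 1)) ≠ 0 := by
      intro h
      have := congrArg Fin.val h
      simp at this
    simp only [if_neg h1]
    rw [hu1]
    norm_num
  · intro j hj
    have h1 : j ≠ 0 := by
      rintro rfl
      simp at hj
    simp only [if_neg h1]
    rw [hu2 j hj]
    omega

variable {r : ℕ} {R : Type} [CommRing R] [IsDomain R] [Algebra ℂ R]
  {𝒜 : ℕ × (Fin r → ℤ) → Submodule ℂ R} [GradedAlgebra 𝒜]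
  {N : ℤ} {n : ℕ} {f : Fin (n + 1) → Fin r → ℤ}
  {β : Fin (n + 1) → Fin (n + 1) → ((Fin r → ℤ) →+ ℤ)} {E F : Fin (n + 1) → Fin (n + 1) → VF R}

/-- Given values with sum zero are, up to the factor `N`, the values of some functional. -/
theorem exists_fun (hA : H989.AC 𝒜 N n f β E F) (v : Fin (n + 1) → ℤ) (hv : ∑ i, v i = 0) :
    ∃ c : (Fin r → ℤ) →+ ℤ, ∀ k, c (f k) = N * v k := by
  classical
  refine ⟨∑ i : Fin (n + 1), if i = Fin.last n then 0 else v i • β i (Fin.last n), fun k => ?_⟩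
  have h1 : ∀ i : Fin (n + 1), (if i = Fin.last n then (0 : (Fin r → ℤ) →+ ℤ)
      else v i • β i (Fin.last n)) (f k) =
      v i * ((if k = i then N else 0) - (if k = Fin.last n then N else 0)) := by
    intro i
    by_cases hi : i = Fin.last n
    · rw [if_pos hi, hi, AddMonoidHom.zero_apply, sub_self, mul_zero]
    · rw [if_neg hi, AddMonoidHom.smul_apply, hA.be _ _ _ hi, smul_eq_mul]
  rw [AddMonoidHom.finsetSum_apply]
  simp only [h1, mul_sub, Finset.sum_sub_distrib]
  rw [← Finset.sum_mul, hv, zero_mul, sub_zero]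
  simp only [mul_ite, mul_zero]
  rw [Finset.sum_ite_eq Finset.univ k, if_pos (Finset.mem_univ _), mul_comm]

/-- The chamber exists. -/
theorem exists_Ch2 (H : Hyp 𝒜) (hA : H989.AC 𝒜 N n f β E F) :
    ∃ c : (Fin r → ℤ) →+ ℤ, N2.Ch2 𝒜 n f c := by
  obtain ⟨m, rfl⟩ : ∃ m, n = m + 2 := ⟨n - 2, by have := hA.n2; omega⟩
  obtain ⟨v, hv0, hv1, hv2, hv3⟩ := exists_val m
  obtain ⟨c0, hc0⟩ := exists_fun hA v hv0
  obtain ⟨g, hg⟩ := H587.exists_generic ((D01.wt_finite H).union (Set.finite_singleton 0))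
  obtain ⟨c, h1, h2, h3⟩ := D01.exists_combo H c0 g
  have hN := hA.N0
  refine ⟨c, ⟨fun μ hμ => ?_, fun i j hij => ?_, ?_, fun j hj => ?_⟩⟩
  · rcases lt_trichotomy (c0 μ) 0 with h4 | h4 | h4
    · have h5 := h3 (-μ) (H989.wt_neg H hμ) (by rw [map_neg]; omega)
      rw [map_neg] at h5
      omega
    · intro h5
      have h6 := h2 μ 0 (by rw [h4, map_zero])
      rw [h5, map_zero, map_zero, sub_zero, sub_zero] at h6
      have h7 : μ = 0 := hg (Or.inl hμ) (Or.inr rfl) (by rw [← h6, map_zero])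
      exact c03_wt_ne_zero H hμ h7
    · exact (h3 μ hμ h4).ne'
  · refine h1 _ _ (hA.wt j) (hA.wt i) ?_
    rw [hc0, hc0]
    exact mul_lt_mul_of_pos_left (hv1 i j hij) hN
  · refine h3 _ (hA.wt 1) ?_
    rw [hc0]
    exact mul_pos hN hv2
  · have h4 := h3 (-f j) (hA.wtn j) (by
      rw [map_neg, hc0]
      have := mul_neg_of_pos_of_neg hN (hv3 j hj)
      omega)
    rw [map_neg] at h4
    omega

end Vale.Agent.P280.H376
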